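import Vale.Agent.P305L.Run
import Vale.Agent.P305F.BipTop

/-!
# Programs of the array language with a randomized black box run on the randomized word RAM
-/

namespace Vale.Agent.P305L

open Vale.Agent.P305 Vale.Agent.P305.MM Vale.Agent.P305E Vale.Agent.P305F

/-- `bb b` finds, with probability `1 - 2 ^ (-b)`, a maximum matching of every graph of the class
`Cl` of size at most `2 ^ b`, in expected time `(n + m + 2) g(b)`. -/
structure EncOK (Cl : ∀ n : ℕ, SimpleGraph (Fin n) → Prop) (bb : ℕ → List ℕ → M (List ℕ))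
    (c : ℕ) (g : ℕ → ℕ) : Prop where
  impl : Impl fun p : ℕ × List ℕ => bb p.1 p.2
  sub : ∀ a, Sub fun N => g (a * Nat.size N + a)
  spec : ∀ (B b n : ℕ) (G : SimpleGraph (Fin n)) (L : AdjLists G), Cl n G →
    n + G.edgeSet.ncard + 2 ≤ 2 ^ b → 2 ^ (c * (b + 1)) ≤ B →
    ∀ (F : List ℕ → ℕ → ℝ) (C₀ κ : ℝ), 0 ≤ κ → 0 ≤ C₀ → (∀ l t, F l t ≤ 1) →
      (∀ l t, (∃ M : G.Subgraph, IsMaximumMatching G M ∧ Represents (fun i => l.getD i 0) M) →
        F l t ≤ C₀ + κ * t) →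
      wp B (bb b L.encode) F 1 ≤ C₀ + κ * ((n + G.edgeSet.ncard + 2) * g b : ℕ) + 1 / 2 ^ b

theorem encOK_bip {bip : ℕ → ℕ → ℕ → List (ℕ × ℕ) → M (List (ℕ × ℕ))} {c : ℕ} {g : ℕ → ℕ}
    (h : BipOK bip c g) : ∃ bb c' g', EncOK (fun _ G => G.IsBipartite) bb c' g' := by
  have hI := h.impl
  refine ⟨fun b inp => readAdj inp >>= fun r => colour r.1 r.2 >>= fun col =>
    pairsP r.1 r.2 (fun u _ => col.get u) >>= fun E => num (b + 1) >>= fun b' =>
    bip b' r.1 r.1 E >>= fun l => mateP r.1 l, 2 * c + 1, fun b => 2 * g (b + 1) + 12,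
    by fun_prop, fun a => (((Sub.const 2).mul (h.sub (a + 1))).add (Sub.const 12)).mono
      fun N _ => ?_, fun B b n G L hG hb hB F C₀ κ h1 h2 h3 h4 => ?_⟩
  · have := h.mono (show a * Nat.size N + a + 1 ≤ (a + 1) * Nat.size N + (a + 1) by nlinarith)
    omega
  obtain ⟨N, hN⟩ : ∃ N, N = n + G.edgeSet.ncard + 2 := ⟨_, rfl⟩
  rw [← hN] at hb ⊢
  have e1 : 2 ^ (b + 1) ≤ B := (Nat.pow_le_pow_right (by omega) (by nlinarith)).trans hB
  have e2 : b + 1 ≤ B := Nat.lt_two_pow_self.le.trans e1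
  rw [pow_succ] at e1
  rw [wp_bind]
  refine wp_le_const_of_Tri (readAdj_tri (c := ⟨B, true⟩) L (by simp only; omega)) ?_ 1
  rintro ⟨n', adj⟩ t₀ ⟨e, hA, ht⟩
  obtain rfl : n = n' := e.symm
  rw [wp_bind]
  refine wp_le_const_of_Tri (colour_tri (c := ⟨B, true⟩) hA hG) (fun col t₁ ⟨a1, a2⟩ => ?_) 1
  rw [wp_bind]
  refine wp_le_const_of_Tri (pairsP_tri (c := ⟨B, true⟩) hA fun u _ => col.get u)
    (fun E t₂ ⟨b1, _, b3, b4⟩ => ?_) 1
  simp only [wp_bind, wp_num, if_pos e2]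
  refine (h.spec B (b + 1) n n E (fun p hp => ⟨((b1 _ _).1 hp).1.lt, ((b1 _ _).1 hp).1.lt'⟩)
    (by rw [pow_succ]; omega) ((Nat.pow_le_pow_right (by omega) (by nlinarith)).trans hB) _
    (C₀ + κ * (12 * N : ℕ)) κ h1 (by positivity)
    (fun _ _ => wp_le_const (fun _ _ => h3 _ _) le_rfl) fun l t hl => ?_).trans ?_
  · have hm := maxGM_of_maxBM a1 b1 hl
    refine wp_le_const_of_Tri (mateP_tri (c := ⟨B, true⟩) hm.1 (by simp only; omega))
      (fun out t' ⟨c1, c2⟩ => (h4 _ _ ⟨_, hm.maximum, c1⟩).trans ?_) 1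
    rw [add_assoc C₀, ← mul_add, ← Nat.cast_add]
    refine add_le_add_right (mul_le_mul_of_nonneg_left (Nat.cast_le.2 ?_) h1) _
    omega
  · have e3 : (1 : ℝ) / 2 ^ (b + 1) ≤ 1 / 2 ^ b :=
      one_div_le_one_div_of_le (by positivity) (pow_le_pow_right₀ (by norm_num) (by omega))
    have e4 : 12 * N + (n + n + E.length + 1) * g (b + 1) ≤ N * (2 * g (b + 1) + 12) := by
      have := Nat.mul_le_mul_right (g (b + 1)) (by omega : n + n + E.length + 1 ≤ 2 * N)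
      nlinarith
    have e5 := mul_le_mul_of_nonneg_left (Nat.cast_le (α := ℝ).2 e4) h1
    rw [Nat.cast_add, mul_add] at e5
    linarith

/-- `out` is a right answer to the input `inp`. -/
def GoodM (inp : List ℕ) (out : ℕ → ℕ) : Prop :=
  ∀ (n : ℕ) (H : SimpleGraph (Fin n)) (L : AdjLists H), L.encode = inp →
    ∃ M : H.Subgraph, IsMaximumMatching H M ∧ Represents out M

theorem goodM_of {n : ℕ} {H : SimpleGraph (Fin n)} (L : AdjLists H) {out : ℕ → ℕ}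
    (h : ∃ M : H.Subgraph, IsMaximumMatching H M ∧ Represents out M) : GoodM L.encode out := by
  intro n' H' L' e
  obtain rfl : n' = n := by rw [← IO.encode_zero L, ← e, IO.encode_zero]
  obtain ⟨r, t, -, a, b⟩ := ((readAdj_tri (c := ⟨_, false⟩) L (Nat.le_add_right _ _)).and
    (e ▸ readAdj_tri (c := ⟨_, false⟩) L' (Nat.le_add_left _ _))).run_det (fun _ => false) 0
  obtain rfl : H' = H := by
    ext u v
    rw [← GA_fin, ← GA_fin, ← a.2.1.mem, ← b.2.1.mem]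
  exact h

theorem exists_goodM (inp : List ℕ) : ∃ out, GoodM inp out := by
  classical
  by_cases h : ∃ (n : ℕ) (H : SimpleGraph (Fin n)) (L : AdjLists H), L.encode = inp
  · obtain ⟨n, H, L, rfl⟩ := h
    have h1 : ∃ k, ∃ l, IsGM H l ∧ n - l.length = k := ⟨_, [], ⟨by simp, by simp [pends]⟩, rfl⟩
    obtain ⟨l, a, b⟩ := Nat.find_spec h1
    have hm : MaxGM H l := ⟨a, fun l' a' => by
      have := Nat.find_min' h1 ⟨l', a', rfl⟩
      have := a'.length_le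
      omega⟩
    obtain ⟨out, t, -, c, -⟩ := (mateP_tri (c := ⟨n, false⟩) a le_rfl).run_det (fun _ => false) 0
    exact ⟨_, goodM_of L ⟨_, hm.maximum, c⟩⟩
  · exact ⟨fun _ => 0, fun n H L e => (h ⟨n, H, L, e⟩).elim⟩

/-- The first `n` entries of a list. -/
def toArr (n : ℕ) (l : List ℕ) : M (Arr ℕ) :=
  iterM (fun (s : List ℕ × Arr ℕ) i => pure (s.1.tail, s.2.set i (s.1.headD 0)))
    (l, Arr.const 0) n >>= fun s => pure s.2

@[fun_prop] theorem impl_toArr : Impl fun p : ℕ × List ℕ => toArr p.1 p.2 := by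
  unfold toArr
  fun_prop

theorem toArr_tri {c : Cx} (n : ℕ) (l : List ℕ) :
    Tri c (toArr n l) fun o t => (∀ i < n, o.get i = l.getD i 0) ∧ t = n := by
  refine (Tri.iterM (fun k (s : List ℕ × Arr ℕ) t => s.1 = l.drop k ∧
    (∀ i < k, s.2.get i = l.getD i 0) ∧ t = k) (by simp) ?_).bind fun s t h => h.2
  rintro k s t - ⟨h1, h2, h3⟩
  refine ⟨by simp [h1], fun i hi => ?_, by omega⟩
  simp only [Arr.get_set]
  split_ifs with e
  · simp [h1, e, List.getD_eq_getElem?_getD]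
  · exact h2 i (by omega)

theorem box_of {CH : ∀ n : ℕ, SimpleGraph (Fin n) → Prop} {bb : ℕ → List ℕ → M (List ℕ)}
    {c : ℕ} {g : ℕ → ℕ} (hbb : EncOK CH bb c g) {W b τ : ℕ} {κ : ℝ} (hb : b ≤ W)
    (hW : 2 ^ (c * (b + 1)) ≤ W) (hτ : 0 < τ) (hκ : 0 ≤ κ)
    {P : ∀ n : ℕ, SimpleGraph (Fin n) → Prop} (hP : ∀ (n : ℕ) (H : SimpleGraph (Fin n)), CH n H →
      P n H → n + H.edgeSet.ncard + 2 ≤ 2 ^ b ∧ n + (n + H.edgeSet.ncard + 2) * g b ≤ τ) :
    Box W (fun l => num b >>= fun b => bb b l >>= fun o => toArr (l.headD 0) o)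
      (fun inp => ∃ (n' : ℕ) (H : SimpleGraph (Fin n')) (L' : AdjLists H), CH n' H ∧ P n' H ∧
        inp = L'.encode) GoodM τ κ (1 / 2 ^ b / τ) := by
  refine ⟨?_, ?_, ?_⟩
  · rintro _ ⟨n', H, L', -, -, rfl⟩
    rw [IO.encode_zero, IO.encode_off L' le_rfl, IO.encode_length]
  · rintro _ out ⟨n', H, L', -, -, rfl⟩ h i hi
    rw [IO.encode_zero] at hi ⊢
    obtain ⟨M, a, b⟩ := h n' H L' rfl
    by_cases e : (⟨i, hi⟩ : Fin n') ∈ M.verts
    · obtain ⟨u, hu, -⟩ := a.1 e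
      exact ((b _).2 u hu).le.trans u.2
    · exact ((b _).1 e).le.trans (Nat.zero_le _)
  · rintro _ ⟨n', H, L', a1, a2, rfl⟩ F C₀ b1 b2 b3
    have e0 : L'.encode.headD 0 = n' := rfl
    obtain ⟨e1, e2⟩ := hP n' H a1 a2
    simp only [wp_bind, wp_num, if_pos hb, e0, Nat.zero_add]
    refine (hbb.spec W b n' H L' a1 e1 hW _ (C₀ + κ * n') κ hκ (by positivity)
      (fun _ _ => wp_le_const (fun _ _ => b2 _ _) le_rfl) fun l t ⟨M, m1, m2⟩ => ?_).trans ?_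
    · refine wp_le_const_of_Tri (toArr_tri (c := ⟨W, true⟩) n' l) ?_ 1
      rintro o _ ⟨c1, rfl⟩
      refine (b3 _ _ (goodM_of L' ⟨M, m1, fun v => ?_⟩)).trans (by push_cast; linarith)
      rw [c1 v v.2]
      exact m2 v
    · have e3 := mul_le_mul_of_nonneg_left (Nat.cast_le (α := ℝ).2 e2) hκ
      rw [Nat.cast_add, mul_add] at e3
      rw [div_mul_cancel₀ _ (by positivity)]
      linarith

/-- The whole program. -/
def mainL (bb : ℕ → List ℕ → M (List ℕ)) (kb : ℕ) (fu : ℕ → ℕ) (q : L1.Cmd) (inp : List ℕ) :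
    M (List ℕ) :=
  ofListP 0 inp >>= fun a => num (a.get 0 + a.get (a.get 0 + 1) / 2 + 2) >>= fun N =>
    interp (fun l => num (kb * Nat.size N + kb) >>= fun b => bb b l >>= fun o =>
      toArr (l.headD 0) o) (fu N) q
      (Arr.const 0, (Arr.const (Arr.const 0)).set 0 a, []) >>= fun x =>
    rangeP (a.get 0) >>= fun r => mapP (fun v => (x.2.1.get 3).get v) r

theorem impl_mainL {bb : ℕ → List ℕ → M (List ℕ)} (hI : Impl fun p : ℕ × List ℕ => bb p.1 p.2)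
    (kb : ℕ) (fu : ℕ → ℕ) (q : L1.Cmd) : Impl (mainL bb kb fu q) := by
  have hJ := impl_interp (bb := fun N l => num (kb * Nat.size N + kb) >>= fun b => bb b l >>=
    fun o => toArr (l.headD 0) o) (by fun_prop) fu q
  refine Impl.bind (by fun_prop) (Impl.bind (by fun_prop) (Impl.bind ?_ (by fun_prop)))
  exact Impl.comp (g := fun p : (List ℕ × Arr ℕ) × ℕ =>
    (p.2, (Arr.const 0, (Arr.const (Arr.const 0)).set 0 p.1.2, []))) hJ (by fun_prop)

theorem mainL_pr {bb : ℕ → List ℕ → M (List ℕ)} {kb : ℕ} {fu : ℕ → ℕ} {q : L1.Cmd} {K cap Y : ℕ}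
    (hq : q.ok K Y) {n : ℕ} {G : SimpleGraph (Fin n)} (L : AdjLists G) {N W X Kt τ : ℕ} {ε : ℝ}
    (hN : N = n + G.edgeSet.ncard + 2) {Valid : List ℕ → Prop} (hτ : 0 < τ) (hε : 0 ≤ ε)
    (box : Box W (fun l => num (kb * Nat.size N + kb) >>= fun b => bb b l >>= fun o =>
      toArr (l.headD 0) o) Valid GoodM τ (1 / X) ε)
    (y0 : 16 * Y ≤ W) (y1 : cap ≤ Y) (y3 : 2 * N ≤ Y) (y4 : Kt * τ ≤ Y) (y5 : Kt * τ < fu N)
    (hX : X = 10 * ((Kt + 4) * (Kt * τ) + 4 * N)) (z2 : ε * (Kt * τ : ℕ) ≤ 1 / 10)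
    (hr : ∀ ρ, (∀ inp, GoodM inp (ρ inp)) → ∃ (t : ℕ) (s : L1.St) (M : G.Subgraph),
      L1.Ex (Rel Valid τ ρ) cap q (L1.St.init L.encode) t s ∧
      t ≤ Kt * τ ∧ IsMaximumMatching G M ∧ Represents (s.a 3) M) :
    pr W (mainL bb kb fu q L.encode) (fun out t => ¬ ((∃ M : G.Subgraph, IsMaximumMatching G M ∧
      Represents (fun i => out.getD i 0) M) ∧ t ≤ X)) ≤ 1 / 3 := by
  classical
  have hd : L.encode.getD (n + 1) 0 = 2 * G.edgeSet.ncard := by
    rw [IO.encode_off L le_rfl, IO.upTo_length]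
  have hl : L.encode.length = n + 2 + 2 * G.edgeSet.ncard := by
    rw [IO.encode_length, IO.upTo_length]
  have hX0 : (0 : ℝ) < X := by exact_mod_cast (by omega : 0 < X)
  have e0 : toSt (Arr.const 0, (Arr.const (Arr.const 0)).set 0 ⟨fun i => L.encode.getD i 0⟩, []) =
      L1.St.init L.encode := by
    simp only [toSt, L1.St.init, L1.St.mk.injEq]
    refine ⟨rfl, funext fun j => ?_⟩
    rw [Arr.get_set]
    split_ifs <;> rfl
  unfold pr
  simp only [mainL, ofListP, pay, wp_bind, wp_need, wp_ticks, wp_ret, wp_num, IO.encode_zero, hd,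
    show n + 2 * G.edgeSet.ncard / 2 + 2 = N by omega,
    if_pos (by omega : L.encode.length ≤ W), if_pos (by omega : N ≤ W), wp_rangeP, wp_mapP]
  have hlam : (0 : ℝ) ≤ 1 / X * (Kt + 4) + ε := by positivity
  refine (interp_wp box (by positivity) hε hτ q (K := K) (Kt := Kt) (cap := cap)
    (V := Y) (T := Kt * τ) hq y1 ?_ (by omega) y5 (by simp)
    ⟨fun inp => (exists_goodM inp).choose, fun inp => (exists_goodM inp).choose_spec, by simp⟩
    (fun ρ hρ => ?_) (C₀ := (1 / X * (Kt + 4) + ε) * (Kt * τ : ℕ) + 4 * N / X)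
    (le_add_of_nonneg_right (by positivity)) (fun _ _ => by split_ifs <;> norm_num)
    fun x t u a => ?_).trans ?_
  · rw [e0]
    refine ⟨fun _ => Nat.zero_le _, fun j i => ?_⟩
    have := IO.encode_le L i
    simp only [L1.St.init]
    split_ifs <;> omega
  · obtain ⟨t, s, _, a, b, -⟩ := hr ρ hρ.1
    exact ⟨t, s, e0 ▸ a, b⟩
  · obtain ⟨ρ, hρ⟩ := a.ex
    obtain ⟨_, s, M, a1, -, a2, a3⟩ := hr ρ hρ.1
    obtain ⟨-, rfl⟩ := box.det a1 (e0 ▸ (a.run ρ hρ).2)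
    have a4 := mul_le_mul_of_nonneg_left (Nat.cast_le (α := ℝ).2 a.le) hlam
    have a5 : (0 : ℝ) ≤ 4 * N / X + 1 / X * t := by positivity
    split_ifs with hb'
    · linarith
    · have a6 : X ≤ 4 * N + t := by
        by_contra a7
        refine hb' ⟨⟨M, a2, fun v => ?_⟩, by simp only [List.length_range]; omega⟩
        have : ((List.range n).map fun v => (x.2.1.get 3).get v).getD v 0 = (toSt x).a 3 v := by
          simp [List.getD_eq_getElem?_getD, toSt]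
        beta_reduce
        rw [this]
        exact a3 v
      have a8 : (1 : ℝ) ≤ 4 * N / X + 1 / X * t := by
        rw [one_div, inv_mul_eq_div, ← add_div, le_div_iff₀ hX0, one_mul]
        exact_mod_cast a6
      linarith
  · have z1 : (1 : ℝ) / X * (Kt + 4) * (Kt * τ : ℕ) + 4 * N / X = 1 / 10 := by
      have : (X : ℝ) = 10 * ((Kt + 4) * (Kt * τ : ℕ) + 4 * N) := by rw [hX]; push_cast; ring
      field_simp
      linarith
    rw [add_mul]
    linarith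

theorem size_facts {N kb c1 k2 x : ℕ} (h2 : 2 ≤ N) (hkb : kb = c1 + k2 + 5) (hx : x ≤ N ^ c1) :
    2 ^ (kb * Nat.size N + kb + 1) ≤ N ^ (3 * kb + 1) ∧ k2 * N ≤ 2 ^ (kb * Nat.size N + kb) ∧
      10 * (x + 1) ≤ 2 ^ (kb * Nat.size N + kb) := by
  have y8 : N ^ kb ≤ 2 ^ (kb * Nat.size N + kb) := by
    rw [pow_add, mul_comm kb, pow_mul]
    exact (Nat.pow_le_pow_left (Nat.lt_size_self N).le _).trans
      (Nat.le_mul_of_pos_right _ (by positivity))
  refine ⟨?_, ?_, ?_⟩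
  · calc 2 ^ (kb * Nat.size N + kb + 1) = (2 ^ Nat.size N * 2) ^ kb * 2 := by
          rw [← pow_succ 2 (Nat.size N), ← pow_mul]; ring
      _ ≤ (N ^ 3) ^ kb * N := Nat.mul_le_mul (Nat.pow_le_pow_left (by
          have := two_pow_size_le (by omega : 1 ≤ N)
          nlinarith [Nat.mul_le_mul h2 h2]) _) h2
      _ = _ := by rw [← pow_mul, pow_succ]
  · refine le_trans ?_ ((Nat.pow_le_pow_right (by omega) (by omega : k2 + 1 ≤ kb)).trans y8)
    rw [pow_succ]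
    exact Nat.mul_le_mul_right _ (Nat.lt_pow_self (by omega)).le
  · refine le_trans ?_ ((Nat.pow_le_pow_right (by omega) (by omega : 5 + c1 ≤ kb)).trans y8)
    have := Nat.pow_le_pow_left h2 5
    have := Nat.one_le_pow c1 N (by omega)
    rw [pow_add]
    nlinarith

theorem rand_of_L1 {CH CG : ∀ n : ℕ, SimpleGraph (Fin n) → Prop} {bb : ℕ → List ℕ → M (List ℕ)}
    {c : ℕ} {g : ℕ → ℕ} (hbb : EncOK CH bb c g) {K : ℕ} (q : L1.Cmd) {cst : ℕ} (hq : q.ok K cst)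
    (k1 k2 : ℕ) (Sz : ∀ n : ℕ, SimpleGraph (Fin n) → ∀ n' : ℕ, SimpleGraph (Fin n') → Prop)
    (A B : ∀ n : ℕ, SimpleGraph (Fin n) → ℕ) {gA : ℕ → ℕ} (hgA : Sub gA)
    (hsz : ∀ (n : ℕ) (G : SimpleGraph (Fin n)), CG n G → ∀ (n' : ℕ) (H : SimpleGraph (Fin n')),
      CH n' H → Sz n G n' H → n' + H.edgeSet.ncard + 2 ≤ k2 * (n + G.edgeSet.ncard + 2))
    (hA : ∀ (n : ℕ) (G : SimpleGraph (Fin n)), CG n G →
      A n G ≤ (n + G.edgeSet.ncard + 2) * gA (n + G.edgeSet.ncard + 2) ∧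
      B n G ≤ gA (n + G.edgeSet.ncard + 2))
    (hrun : ∀ (n : ℕ) (G : SimpleGraph (Fin n)), CG n G → ∀ L : AdjLists G,
      ∀ (R : List ℕ → (ℕ → ℕ) → ℕ → Prop) (τ : ℕ),
      (∀ (n' : ℕ) (H : SimpleGraph (Fin n')) (L' : AdjLists H), CH n' H → Sz n G n' H →
        ∃ (out : ℕ → ℕ) (t : ℕ) (M : H.Subgraph), R L'.encode out t ∧ t ≤ τ ∧
          IsMaximumMatching H M ∧ Represents out M) →
      ∃ (t : ℕ) (s : L1.St) (M : G.Subgraph),
        L1.Ex R ((n + G.edgeSet.ncard + 2) ^ k1) q (L1.St.init L.encode) t s ∧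
        t ≤ A n G + B n G * τ ∧ IsMaximumMatching G M ∧ Represents (s.a 3) M) :
    ∃ (P : RProg) (T : ℕ → ℕ → ℕ), AlmostLin T ∧ RandSolvesOn CG P T := by
  obtain ⟨c1, hc1⟩ := hgA.le_pow
  obtain ⟨kb, hkb⟩ : ∃ kb, kb = c1 + k2 + 5 := ⟨_, rfl⟩
  obtain ⟨w, hw⟩ : ∃ w : ℕ → ℕ, w = fun N => k2 * (g (kb * Nat.size N + kb) + 1) + gA N + 1 :=
    ⟨_, rfl⟩
  have sw : Sub w := hw ▸ (((Sub.const k2).mul ((hbb.sub kb).add (Sub.const 1))).add hgA).add
    (Sub.const 1)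
  have sK : Sub fun N => gA N + 1 := hgA.add (Sub.const 1)
  obtain ⟨c2, hc2⟩ := (sK.mul sw).le_pow
  refine top CG (mainL bb kb (fun N => (gA N + 1) * (N * w N) + 1) q) (impl_mainL hbb.impl _ _ _)
    (4 + (k1 + cst + c2 + (3 * kb + 1) * (c + 1) + 2))
    (fun N => 10 * ((gA N + 1 + 4) * ((gA N + 1) * w N) + 4))
    ((Sub.const 10).mul (((sK.add (Sub.const 4)).mul (sK.mul sw)).add (Sub.const 4)))
    fun n G hG L => ?_
  have hr := hrun n G hG L
  have hs := hsz n G hG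
  obtain ⟨hA1, hA2⟩ := hA n G hG
  obtain ⟨N, hN⟩ : ∃ N, N = n + G.edgeSet.ncard + 2 := ⟨_, rfl⟩
  rw [← hN] at hr hs hA1 hA2 ⊢
  have h2 : 2 ≤ N := by omega
  obtain ⟨y5, y9, y10⟩ := size_facts h2 hkb (hc1 N h2)
  obtain ⟨Y, hY⟩ : ∃ Y, Y = N ^ (k1 + cst + c2 + (3 * kb + 1) * (c + 1) + 2) := ⟨_, rfl⟩
  have pw : ∀ k, k ≤ k1 + cst + c2 + (3 * kb + 1) * (c + 1) + 2 → N ^ k ≤ Y := fun k hk =>
    hY ▸ Nat.pow_le_pow_right (by omega) hk
  have y0 : 16 * Y ≤ N ^ 4 * Y := Nat.mul_le_mul_right _ (Nat.pow_le_pow_left h2 4)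
  have hw1 : w N = k2 * (g (kb * Nat.size N + kb) + 1) + gA N + 1 := by rw [hw]
  have hτ : 0 < N * w N := by rw [hw1]; positivity
  have y6 : 2 ^ ((kb * Nat.size N + kb + 1) * (c + 1)) ≤ Y := by
    refine le_trans ?_ (pw ((3 * kb + 1) * (c + 1)) (by omega))
    rw [pow_mul, pow_mul]
    exact Nat.pow_le_pow_left y5 _
  have y7 : kb * Nat.size N + kb + 1 ≤ Y :=
    (le_trans (Nat.le_mul_of_pos_right _ (by omega)) Nat.lt_two_pow_self.le).trans y6
  rw [pow_add, ← hY]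
  refine mainL_pr (Y := Y) (Kt := gA N + 1) (τ := N * w N)
    (hq.mono ((Nat.lt_pow_self (by omega)).le.trans (pw cst (by omega)))) L hN hτ (by positivity)
    (box_of hbb (P := Sz n G) (by omega) (le_trans (Nat.pow_le_pow_right (by omega)
      (by rw [mul_comm]; exact Nat.mul_le_mul_left _ (Nat.le_succ c))) (y6.trans (by omega))) hτ
      (by positivity) fun n' H a1 a2 => ?_) y0 (pw k1 (by omega))
    (le_trans (by rw [pow_two]; exact Nat.mul_le_mul_right _ h2) (pw 2 (by omega))) ?_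
    (Nat.lt_succ_self _) (by ring) ?_ fun ρ hρ => ?_
  · have e1 := hs n' H a1 a2
    have := Nat.mul_le_mul_right (g (kb * Nat.size N + kb)) e1
    refine ⟨e1.trans y9, ?_⟩
    rw [hw1]
    nlinarith [Nat.zero_le (N * gA N)]
  · refine le_trans ?_ (pw (c2 + 1) (by omega))
    rw [pow_succ, mul_comm N, ← mul_assoc]
    exact Nat.mul_le_mul_right _ (hc2 N h2)
  · have : (10 * (gA N + 1 : ℕ) : ℝ) ≤ 2 ^ (kb * Nat.size N + kb) := by exact_mod_cast y10
    rw [Nat.cast_mul (gA N + 1), mul_comm ((gA N + 1 : ℕ) : ℝ), ← mul_assoc,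
      div_mul_cancel₀ _ (by positivity), one_div, inv_mul_eq_div, div_le_iff₀ (by positivity)]
    linarith
  · obtain ⟨t, s, M, a, b, d⟩ := hr (Rel (fun inp => ∃ (n' : ℕ) (H : SimpleGraph (Fin n'))
      (L' : AdjLists H), CH n' H ∧ Sz n G n' H ∧ inp = L'.encode) (N * w N) ρ) (N * w N)
      fun n' H L' a1 a2 =>
      let ⟨M, m⟩ := hρ _ n' H L' rfl
      ⟨_, _, M, ⟨⟨n', H, L', a1, a2, rfl⟩, rfl, rfl⟩, le_rfl, m⟩
    refine ⟨t, s, M, a, b.trans ?_, d⟩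
    have : N * gA N ≤ N * w N := Nat.mul_le_mul_left _ (by omega)
    have := Nat.mul_le_mul_right (N * w N) hA2
    rw [add_mul]
    omega

end Vale.Agent.P305L
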