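import Vale.Agent.P305L.Defs
import Vale.Agent.P305L.Lift
import Vale.Agent.P305F.Main
import Vale.Agent.P305.H794.Comp

/-!
# Unconditional almost-linear algorithms: few searches, chordal graphs
-/

namespace Vale.Agent.P305L

open Vale.Agent.P305 Vale.Agent.P305.MM Vale.Agent.P305E Vale.Agent.P305F

theorem RandAL.mono {C C' : ∀ n : ℕ, SimpleGraph (Fin n) → Prop} (h : RandAL C)
    (hC : ∀ n G, C' n G → C n G) : RandAL C' := by
  obtain ⟨P, T, h1, k, h2⟩ := h
  exact ⟨P, T, h1, k, fun n G L => ⟨(h2 n G L).1, fun a => (h2 n G L).2 (hC n G a)⟩⟩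

theorem exists_enc : ∃ bb c g, EncOK (fun _ G => G.IsBipartite) bb c g := by
  obtain ⟨bip, c, g, h⟩ := exists_bip
  exact encOK_bip h

theorem log_le_lg {n N : ℕ} (h : n ≤ N) : Nat.log 2 n + 1 ≤ lg N := by
  have h1 : Nat.log 2 n ≤ Nat.size N := by
    rcases Nat.eq_zero_or_pos n with rfl | hn
    · simp
    · have := (Nat.pow_log_le_self 2 hn.ne').trans h
      exact (Nat.lt_size.2 this).le
  unfold lg
  omega

theorem cube_le {n m : ℕ} : 2 * n + 4 * m + 2 ≤ (n + m + 2) ^ 3 := by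
  have : 4 * (n + m + 2) ≤ (n + m + 2) ^ 2 * (n + m + 2) :=
    Nat.mul_le_mul_right _ (Nat.pow_le_pow_left (by omega : 2 ≤ n + m + 2) 2)
  rw [pow_succ]
  omega

theorem randAL_searches (c : ℕ) : RandAL fun _ G => searches G ≤ slow c G := by
  obtain ⟨bb, c', g, h⟩ := exists_enc
  refine rand_of_L1 h oddC oddC_ok 3 2
    (fun n G n' H => n' = 2 * n ∧ H.edgeSet.ncard ≤ 2 * G.edgeSet.ncard)
    (fun n G => 2200 * ((searches G + 1) * ((Nat.log 2 n + 1) * (n + G.edgeSet.ncard + 1))))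
    (fun _ _ => 1) (gA := fun N => 2200 * ((2 ^ (c * sb N) + 1) * lg N))
    ((Sub.const _).mul (((Sub.two_pow (Lin.sb.const_mul c)).add (Sub.const 1)).mul Sub.lg))
    (fun n G _ n' H _ a => by omega) (fun n G hG => ⟨?_, ?_⟩)
    fun n G _ L R τ hR => comp_run G L cube_le hR
  · have h1 := log_le_lg (by omega : n ≤ n + G.edgeSet.ncard + 2)
    have h2 : searches G + 1 ≤ 2 ^ (c * sb (n + G.edgeSet.ncard + 2)) + 1 := Nat.succ_le_succ hG
    have := Nat.mul_le_mul h2 (Nat.mul_le_mul h1 (by omega : n + G.edgeSet.ncard + 1 ≤ n + G.edgeSet.ncard + 2))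
    calc _ ≤ _ := Nat.mul_le_mul_left 2200 this
      _ = _ := by ring
  · have := two_le_lg (n + G.edgeSet.ncard + 2)
    exact Nat.mul_pos (by omega) (Nat.mul_pos (Nat.succ_pos _) (by omega))

theorem randAL_chordal : RandAL fun _ G => IsChordal G := by
  obtain ⟨bb, c', g, h⟩ := exists_enc
  refine rand_of_L1 h (chordalC batchC) (chordalC_ok batchC_ok) 3 2
    (fun n G n' H => n' = 2 * n ∧ H.edgeSet.ncard ≤ 2 * G.edgeSet.ncard)
    (fun n G => (2 * 1000 + 400) * ((Nat.log 2 n + 1) *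
      ((Nat.log 2 n + 1) * (n + G.edgeSet.ncard + 1))))
    (fun n _ => Nat.log 2 n + 1) (gA := fun N => 2400 * (lg N * lg N))
    ((Sub.const _).mul (Sub.lg.mul Sub.lg))
    (fun n G _ n' H _ a => by omega) (fun n G hG => ⟨?_, ?_⟩)
    fun n G hG L R τ hR => chordal_run batchSpec G hG L ?_ cube_le hR
  · have h1 := log_le_lg (by omega : n ≤ n + G.edgeSet.ncard + 2)
    have := Nat.mul_le_mul h1 (Nat.mul_le_mul h1 (by omega : n + G.edgeSet.ncard + 1 ≤ n + G.edgeSet.ncard + 2))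
    calc _ ≤ _ := Nat.mul_le_mul_left _ this
      _ = _ := by ring
  · have h1 := log_le_lg (by omega : n ≤ n + G.edgeSet.ncard + 2)
    have := two_le_lg (n + G.edgeSet.ncard + 2)
    nlinarith
  · have h1 := Nat.log_le_self 2 n
    have h2 : (n + 2) ^ 3 ≤ (n + G.edgeSet.ncard + 2) ^ 3 := Nat.pow_le_pow_left (by omega) 3
    have h3 := Nat.mul_le_mul_left (n + 1) (Nat.succ_le_succ h1)
    nlinarith [Nat.zero_le (n ^ 3), Nat.zero_le (n ^ 2)]

theorem le_slow (d : ℕ) {n : ℕ} (G : SimpleGraph (Fin n)) : d ≤ slow d G :=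
  Nat.lt_two_pow_self.le.trans (Nat.pow_le_pow_right (by omega)
    (Nat.le_mul_of_pos_right _ (one_le_sb (N := n + G.edgeSet.ncard + 2) (by omega))))

theorem slow_succ (c : ℕ) {n : ℕ} (G : SimpleGraph (Fin n)) :
    2 * slow c G ≤ slow (c + 1) G := by
  unfold slow
  rw [← pow_succ']
  have := one_le_sb (N := n + G.edgeSet.ncard + 2) (by omega)
  unfold sb at this
  exact Nat.pow_le_pow_right (by omega) (by rw [add_mul]; omega)

theorem one_le_slow (c : ℕ) {n : ℕ} (G : SimpleGraph (Fin n)) : 1 ≤ slow c G :=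
  Nat.one_le_two_pow

end Vale.Agent.P305L
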