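import Vale.Agent.P305E.Spec

/-!
# Classes of graphs with an almost-linear randomized matching algorithm
-/

namespace Vale.Agent.P305L

open Vale.Agent.P305.MM Vale.Agent.P305E

/-- Some randomized word RAM program always halts in time `(n + m) ^ (1 + o(1))` and finds, with
probability at least `2 / 3`, a maximum matching of every graph of the class `Cl`. -/
def RandAL (Cl : ∀ n : ℕ, SimpleGraph (Fin n) → Prop) : Prop :=
  ∃ (P : RProg) (T : ℕ → ℕ → ℕ), AlmostLin T ∧ RandSolvesOn Cl P T

/-- `2 ^ (c log N / log log log N)` for `N = n + m + 2`, with binary lengths as logarithms. -/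
noncomputable def slow (c : ℕ) {n : ℕ} (G : SimpleGraph (Fin n)) : ℕ :=
  2 ^ (c * (Nat.size (n + G.edgeSet.ncard + 2) /
    Nat.size (Nat.size (Nat.size (n + G.edgeSet.ncard + 2)))))

end Vale.Agent.P305L
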