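import Vale.Agent.P305.Bdl.B1
import Vale.Agent.P305E.Arr
import Vale.Agent.P305E.WpLoop

/-!
# An interpreter of the array language with a black box; answers of the black box are stored
-/

namespace Vale.Agent.P305L

open Vale.Agent.P305 Vale.Agent.P305E

/-- Registers, arrays, and the table of the earlier calls. -/
abbrev IS := Arr ℕ × Arr (Arr ℕ) × List (List ℕ × Arr ℕ)

/-- The state of the array language. -/
def toSt (x : IS) : L1.St := ⟨x.1.get, fun j => (x.2.1.get j).get⟩

/-- One instruction. -/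
def stepB : L1.B → IS → M IS
  | .const d c, x => pure (x.1.set d c, x.2)
  | .copy d y, x => pure (x.1.set d (x.1.get y), x.2)
  | .inc d, x => num (x.1.get d + 1) >>= fun v => pure (x.1.set d v, x.2)
  | .dec d, x => pure (x.1.set d (x.1.get d - 1), x.2)
  | .sub d y z, x => pure (x.1.set d (x.1.get y - x.1.get z), x.2)
  | .load j d y, x => pure (x.1.set d ((x.2.1.get j).get (x.1.get y)), x.2)
  | .store j y z, x => pure (x.1, x.2.1.set j ((x.2.1.get j).set (x.1.get y) (x.1.get z)), x.2.2)

/-- A block of instructions. -/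
def runB : List L1.B → IS → M IS
  | [], x => pure x
  | b :: l, x => stepB b x >>= runB l

/-- A test. -/
def testB : Test → IS → Bool
  | .lt a b, x => decide (x.1.get a < x.1.get b)
  | .eq a b, x => decide (x.1.get a = x.1.get b)
  | .ne a b, x => decide (x.1.get a ≠ x.1.get b)

/-- Equality of lists. -/
def eqL (l l' : List ℕ) : M Bool :=
  loopM (fun p : List ℕ × List ℕ => caseL p.1 (pure (.inr p.2.isEmpty)) fun x r =>
    caseL p.2 (pure (.inr false)) fun y r' =>
      if x = y then pure (.inl (r, r')) else pure (.inr false)) (l.length + 1) (l, l')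

/-- Search in the table. -/
def lookup (tab : List (List ℕ × Arr ℕ)) (inp : List ℕ) : M (Option (Arr ℕ)) :=
  foldM (fun acc p => eqL inp p.1 >>= fun b => pure (if b = true then some p.2 else acc)) none tab

/-- A call of the black box. -/
def callM (bb : List ℕ → M (Arr ℕ)) (x : IS) : M IS :=
  num ((x.2.1.get 1).get 0 + 2 + (x.2.1.get 1).get ((x.2.1.get 1).get 0 + 1)) >>= fun len =>
  rangeP len >>= fun r => mapP (fun i => (x.2.1.get 1).get i) r >>= fun inp =>
  lookup x.2.2 inp >>= fun res =>
  res.elim (bb inp >>= fun o => pure (o, (inp, o) :: x.2.2)) (fun o => pure (o, x.2.2)) >>= fun y =>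
  iterM (fun a i => pure (a.set i (y.1.get i))) (x.2.1.get 2) ((x.2.1.get 1).get 0) >>= fun a =>
  pure (x.1, x.2.1.set 2 a, y.2)

/-- The interpreter; `fu` is the (ghost) fuel of the loops. -/
def interp (bb : List ℕ → M (Arr ℕ)) (fu : ℕ) : L1.Cmd → IS → M IS
  | .blk l, x => runB l x
  | .add d y z, x => num (x.1.get y + x.1.get z) >>= fun v => pure (x.1.set d v, x.2)
  | .seq p q, x => interp bb fu p x >>= interp bb fu q
  | .ite c p q, x => if testB c x = true then interp bb fu p x else interp bb fu q x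
  | .loop c p, x => loopM (fun x => if testB c x = true then
      interp bb fu p x >>= fun x' => pure (.inl x') else pure (.inr x)) fu x
  | .call, x => callM bb x

theorem impl_stepB (b : L1.B) : Impl (stepB b) := by
  cases b <;> unfold stepB <;> fun_prop

theorem impl_runB (l : List L1.B) : Impl (runB l) := by
  induction l with
  | nil => exact Impl.pure Pure.id
  | cons b l ih => exact Impl.bind (impl_stepB b) (Impl.comp ih (by fun_prop))

theorem pure_testB (c : Test) : Pure (testB c) := by
  cases c <;> unfold testB <;> fun_prop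

@[fun_prop] theorem impl_eqL : Impl fun p : List ℕ × List ℕ => eqL p.1 p.2 := by
  unfold eqL
  fun_prop

@[fun_prop] theorem impl_lookup :
    Impl fun p : List (List ℕ × Arr ℕ) × List ℕ => lookup p.1 p.2 := by
  unfold lookup
  fun_prop

theorem impl_interp {ι : Type} [Rep ι] {bb : ι → List ℕ → M (Arr ℕ)}
    (hb : Impl fun p : ι × List ℕ => bb p.1 p.2) (fu : ι → ℕ) (q : L1.Cmd) :
    Impl fun p : ι × IS => interp (bb p.1) (fu p.1) q p.2 := by
  induction q with
  | blk l => exact Impl.comp (impl_runB l) (by fun_prop)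
  | add d y z => unfold interp; fun_prop
  | seq p q ih1 ih2 =>
    unfold interp
    exact Impl.bind ih1 (Impl.comp (g := fun p : (ι × IS) × IS => (p.1.1, p.2)) ih2 (by fun_prop))
  | ite c p q ih1 ih2 =>
    unfold interp
    exact Impl.ite (PPred.of_bool (Pure.comp (pure_testB c) (by fun_prop)).grow) ih1 ih2
  | loop c p ih =>
    unfold interp
    refine Impl.loopM (Impl.ite (PPred.of_bool (Pure.comp (pure_testB c) (by fun_prop)).grow)
      (Impl.bind (Impl.comp (g := fun p : (ι × IS) × IS => (p.1.1, p.2)) ih (by fun_prop))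
        (by fun_prop)) (by fun_prop)) (by fun_prop)
  | call =>
    unfold interp callM
    fun_prop

theorem testB_iff (c : Test) (x : IS) : testB c x = true ↔ c.holds (toSt x).r := by
  cases c <;> simp [testB, Test.holds, toSt]

theorem stepB_tri {c : Cx} {b : L1.B} {x : IS} {V : ℕ} (hx : (toSt x).Bdd V) (hV : V < c.B) :
    Tri c (stepB b x) fun x' t => toSt x' = b.step (toSt x) ∧ x'.2.2 = x.2.2 ∧ t = 0 := by
  cases b with
  | inc d =>
    simp only [stepB, Tri_bind, Tri_num, Tri_pure]
    exact ⟨(Nat.succ_le_succ (hx.1 d)).trans hV, rfl, by simp⟩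
  | store j y z =>
    simp only [stepB, Tri_pure, and_true, toSt, L1.B.step, L1.St.mk.injEq, true_and]
    funext i
    rw [Arr.get_set, Function.update_apply]
    split_ifs <;> rfl
  | _ => exact ⟨rfl, rfl, rfl⟩

theorem runB_tri {c : Cx} {K : ℕ} (l : List L1.B) : ∀ {x : IS} {V : ℕ}, (∀ b ∈ l, b.ok K V) →
    (toSt x).Bdd V → V + l.length ≤ c.B → Tri c (runB l x) fun x' t =>
      toSt x' = L1.run l (toSt x) ∧ x'.2.2 = x.2.2 ∧ t = 0 ∧ (toSt x').Bdd (V + l.length) := by
  induction l with
  | nil => intro x V _ h _; exact ⟨rfl, rfl, rfl, h⟩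
  | cons b l ih =>
    intro x V h1 h2 h3
    simp only [List.length_cons] at h3 ⊢
    refine (stepB_tri h2 (by omega)).bind ?_
    rintro x' _ ⟨a1, a2, rfl⟩
    refine (ih (V := V + 1) (fun b' hb => (h1 b' (by simp [hb])).mono (by omega))
      (a1 ▸ L1.B.step_bdd b _ (h1 b (by simp)) h2) (by omega)).mono ?_
    rintro x'' _ ⟨b1, b2, rfl, b3⟩
    exact ⟨by rw [b1, a1]; rfl, b2.trans a2, rfl, b3.mono (by omega)⟩

theorem eqL_tri {c : Cx} (l l' : List ℕ) :
    Tri c (eqL l l') fun b t => (b = true ↔ l = l') ∧ t ≤ l.length := by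
  refine Tri.loopM (fun p t => (p.1 = p.2 ↔ l = l') ∧ t + p.1.length ≤ l.length)
    (fun p => p.1.length) ?_ (by simp) (by simp)
  rintro ⟨a, b⟩ t ⟨h1, h2⟩
  rcases a with _ | ⟨x, a⟩ <;> rcases b with _ | ⟨y, b⟩ <;>
    simp only [caseL_nil, caseL_cons, Tri_pure, Tri_ite, Sum.elim_inr, Sum.elim_inl, ← h1,
      List.length_cons] at h2 ⊢
  · exact ⟨by simp, by omega⟩
  · exact ⟨by simp, by omega⟩
  · exact ⟨by simp, by omega⟩
  · exact ⟨fun h => ⟨⟨by simp [h], by omega⟩, by omega⟩, fun h => ⟨by simp [h], by omega⟩⟩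

theorem lookup_tri {c : Cx} (tab : List (List ℕ × Arr ℕ)) (inp : List ℕ) :
    Tri c (lookup tab inp) fun r t => (r = none → ∀ p ∈ tab, p.1 ≠ inp) ∧
      (∀ o, r = some o → (inp, o) ∈ tab) ∧ t ≤ tab.length * (inp.length + 1) := by
  refine Tri.foldM (s := none) (fun pre (r : Option (Arr ℕ)) t => (r = none → ∀ p ∈ pre, p.1 ≠ inp) ∧
    (∀ o, r = some o → (inp, o) ∈ pre) ∧ t ≤ pre.length * (inp.length + 1)) (by simp) ?_
  rintro pre p rest r t - ⟨h1, h2, h3⟩
  refine (eqL_tri inp p.1).bind fun b t' ⟨a1, a2⟩ => ?_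
  simp only [Tri_pure, List.length_append, List.length_singleton]
  refine ⟨fun h q hq => ?_, fun o h => ?_, by nlinarith⟩
  · split_ifs at h with e
    rcases List.mem_append.1 hq with hq | hq
    · exact h1 h q hq
    · rw [List.mem_singleton.1 hq]
      exact fun e' => e (a1.2 e'.symm)
  · split_ifs at h with e
    · rw [a1.1 e, ← Option.some.inj h]
      simp
    · exact List.mem_append_left _ (h2 o h)

end Vale.Agent.P305L
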