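import Vale.Agent.P305L.Interp

/-!
# The interpreter follows the semantics, for a randomized black box
-/

namespace Vale.Agent.P305L

open Vale.Agent.P305 Vale.Agent.P305E

/-- The black box `bb` gives good answers to valid inputs, in expected time `τ`, and fails with
probability at most `ε τ`. -/
structure Box (B : ℕ) (bb : List ℕ → M (Arr ℕ)) (Valid : List ℕ → Prop)
    (Good : List ℕ → (ℕ → ℕ) → Prop) (τ : ℕ) (κ ε : ℝ) : Prop where
  shape : ∀ inp, Valid inp → inp.length = inp.getD 0 0 + 2 + inp.getD (inp.getD 0 0 + 1) 0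
  bd : ∀ inp out, Valid inp → Good inp out → ∀ i < inp.getD 0 0, out i ≤ inp.getD 0 0
  spec : ∀ inp, Valid inp → ∀ (F : Arr ℕ → ℕ → ℝ) (C₀ : ℝ), 0 ≤ C₀ → (∀ o t, F o t ≤ 1) →
    (∀ o t, Good inp o.get → F o t ≤ C₀ + κ * t) → wp B (bb inp) F 1 ≤ C₀ + κ * τ + ε * τ

/-- The black box that answers by the function `ρ`. -/
def Rel (Valid : List ℕ → Prop) (τ : ℕ) (ρ : List ℕ → ℕ → ℕ) (inp : List ℕ) (out : ℕ → ℕ)
    (t : ℕ) : Prop := Valid inp ∧ out = ρ inp ∧ t = τ

/-- `ρ` gives good answers and agrees with the table. -/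
def Fits (Good : List ℕ → (ℕ → ℕ) → Prop) (ρ : List ℕ → ℕ → ℕ) (x : IS) : Prop :=
  (∀ inp, Good inp (ρ inp)) ∧ ∀ p ∈ x.2.2, ρ p.1 = p.2.get

/-- The result of a run of cost `u`. -/
structure Post (Valid : List ℕ → Prop) (Good : List ℕ → (ℕ → ℕ) → Prop) (τ cap V T : ℕ)
    (q : L1.Cmd) (x x' : IS) (u : ℕ) : Prop where
  le : u ≤ T
  bdd : (toSt x').Bdd (V + u)
  len : x'.2.2.length * τ ≤ x.2.2.length * τ + u
  ex : ∃ ρ, Fits Good ρ x'
  run : ∀ ρ, Fits Good ρ x' → Fits Good ρ x ∧ L1.Ex (Rel Valid τ ρ) cap q (toSt x) u (toSt x')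

variable {B : ℕ} {bb : List ℕ → M (Arr ℕ)} {Valid : List ℕ → Prop}
  {Good : List ℕ → (ℕ → ℕ) → Prop} {τ : ℕ} {κ ε : ℝ}

theorem Box.ext (h : Box B bb Valid Good τ κ ε) {l l' : List ℕ} (h1 : Valid l) (h2 : Valid l')
    (e : ∀ i, l.getD i 0 = l'.getD i 0) : l = l' := by
  have hl : l.length = l'.length := by rw [h.shape l h1, h.shape l' h2, e, e]
  refine List.ext_getElem hl fun i a b => ?_
  have := e i
  rwa [List.getD_eq_getElem _ _ a, List.getD_eq_getElem _ _ b] at this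

theorem Box.det (h : Box B bb Valid Good τ κ ε) {ρ : List ℕ → ℕ → ℕ} {cap : ℕ} {q : L1.Cmd}
    {s s' s'' : L1.St} {t t' : ℕ} (h1 : L1.Ex (Rel Valid τ ρ) cap q s t s')
    (h2 : L1.Ex (Rel Valid τ ρ) cap q s t' s'') : t = t' ∧ s' = s'' := by
  refine Ex.det (fun e a b => ?_) h1 h2
  obtain rfl := h.ext a.1 b.1 e
  exact ⟨rfl, a.2.1.trans b.2.1.symm, a.2.2.trans b.2.2.symm⟩

theorem headI_eq (l : List ℕ) : l.headI = l.getD 0 0 := by cases l <;> rfl

theorem callM_wp (h : Box B bb Valid Good τ κ ε) (hκ : 0 ≤ κ) (hε : 0 ≤ ε) {Kt cap V T : ℕ}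
    {x : IS} (hx : (toSt x).Bdd V) (hB : 2 * V + 2 ≤ B) (hK : x.2.2.length ≤ Kt)
    (hρ : ∃ ρ, Fits Good ρ x)
    (hr : ∀ ρ, Fits Good ρ x → ∃ t s', L1.Ex (Rel Valid τ ρ) cap .call (toSt x) t s' ∧ t ≤ T)
    {F : IS → ℕ → ℝ} {C₀ : ℝ} (hC : (κ * (Kt + 4) + ε) * T ≤ C₀) (hF : ∀ x t, F x t ≤ 1)
    (hP : ∀ x' t u, Post Valid Good τ cap V T .call x x' u →
      F x' t ≤ C₀ + κ * t - (κ * (Kt + 4) + ε) * u) : wp B (callM bb x) F 1 ≤ C₀ := by
  classical
  obtain ⟨ρ₀, hρ₀⟩ := hρ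
  obtain ⟨_, _, e, hT⟩ := hr ρ₀ hρ₀
  cases e with
  | @call _ inp out t₀ e1 e2 =>
  obtain ⟨hv, -, rfl⟩ := e2
  have e3 : ∀ i, (x.2.1.get 1).get i = inp.getD i 0 := e1
  have hs := h.shape inp hv
  have b1 : inp.getD 0 0 ≤ V := e1 0 ▸ hx.2 1 0
  have b2 : inp.getD (inp.getD 0 0 + 1) 0 ≤ V := e1 _ ▸ hx.2 1 _
  have hm : ((List.range inp.length).map fun i => inp.getD i 0) = inp :=
    List.ext_getElem (by simp) fun i a b => by simp [List.getD_eq_getElem?_getD, b]
  obtain ⟨u, hu⟩ : ∃ u, u = t₀ + inp.length + 1 := ⟨_, rfl⟩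
  obtain ⟨lam, hl⟩ : ∃ lam, lam = κ * (Kt + 4) + ε := ⟨_, rfl⟩
  rw [← hl] at hC hP
  have hl0 : 0 ≤ lam := by rw [hl]; positivity
  have hCu : lam * u ≤ C₀ := le_trans (mul_le_mul_of_nonneg_left (by exact_mod_cast hu ▸ hT) hl0) hC
  have fin : ∀ (o : Arr ℕ) (tab : List (List ℕ × Arr ℕ)) (t : ℕ), (∃ ρ, Fits Good ρ (x.1, x.2.1, tab)) →
      (inp, o) ∈ tab → (∀ p ∈ x.2.2, p ∈ tab) → tab.length ≤ x.2.2.length + 1 →
      wp B (iterM (fun (a : Arr ℕ) i => pure (a.set i (o.get i))) (x.2.1.get 2) (inp.getD 0 0))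
        (fun a t' => F (x.1, x.2.1.set 2 a, tab) (t + t')) 1 ≤
        C₀ + κ * (t + inp.length : ℕ) - lam * u := by
    intro o tab t ⟨ρ, hρ⟩ h1 h2 h3
    refine wp_le_const_of_Tri (c := ⟨B, true⟩) (Tri.iterM (fun k (a : Arr ℕ) t' => t' = k ∧
      a.get = fun i => if i < k then o.get i else (x.2.1.get 2).get i) (by simp) ?_) ?_ 1
    · rintro k a t' - ⟨e', ha⟩
      refine ⟨by omega, funext fun i => ?_⟩
      rw [Arr.get_set, ha]
      by_cases e : i = k
      · simp [e]
      · simp only [e, if_false]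
        exact if_congr (by omega) rfl rfl
    · rintro a _ ⟨rfl, ha⟩
      have es : toSt (x.1, x.2.1.set 2 a, tab) = L1.callResult (toSt x) inp o.get := by
        simp only [toSt, L1.callResult, L1.St.mk.injEq, true_and, headI_eq]
        funext j
        rw [Arr.get_set, Function.update_apply]
        split_ifs
        · exact ha
        · rfl
      refine (hP (x.1, x.2.1.set 2 a, tab) _ u ⟨hu ▸ hT, ⟨fun r => (hx.1 r).trans (by omega), fun j i => ?_⟩,
        by simp only; nlinarith, ⟨ρ, hρ⟩, fun ρ' hρ' => ⟨⟨hρ'.1, fun p hp => hρ'.2 p (h2 p hp)⟩,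
        ?_⟩⟩).trans ?_
      · rw [es]
        simp only [L1.callResult, Function.update_apply, headI_eq]
        split_ifs with a1
        · beta_reduce
          split_ifs with a2
          · have := h.bd inp _ hv (hρ.1 inp) i a2
            rw [hρ.2 _ h1] at this
            exact this.trans (by omega)
          · exact (hx.2 2 i).trans (by omega)
        · exact (hx.2 j i).trans (by omega)
      · rw [es, hu]
        exact .call e1 ⟨hv, (hρ'.2 _ h1).symm, rfl⟩
      · have : ((t + inp.getD 0 0 : ℕ) : ℝ) ≤ (t + inp.length : ℕ) := by exact_mod_cast by omega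
        have := mul_le_mul_of_nonneg_left this hκ
        linarith
  simp only [callM, e3, ← hs, wp_bind, wp_num, if_pos (by omega : inp.length ≤ B), wp_rangeP,
    wp_mapP, hm, List.length_range, wp_pure, Nat.add_zero, Nat.zero_add]
  refine wp_le_const_of_Tri (lookup_tri (c := ⟨B, true⟩) x.2.2 inp) (fun r t ⟨a1, a2, a3⟩ => ?_) 1
  have a4 : t ≤ Kt * (inp.length + 1) := a3.trans (Nat.mul_le_mul_right _ hK)
  have a5 : κ * ((inp.length + (inp.length + t) + inp.length : ℕ) + t₀) + ε * t₀ ≤ lam * u := by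
    have c1 : inp.length + (inp.length + t) + inp.length + t₀ ≤ (Kt + 4) * u := by
      rw [hu]; nlinarith
    have c2 : ((inp.length + (inp.length + t) + inp.length : ℕ) + t₀ : ℝ) ≤ (Kt + 4) * u := by
      exact_mod_cast c1
    have c3 : (t₀ : ℝ) ≤ u := by exact_mod_cast (by omega : t₀ ≤ u)
    have := mul_le_mul_of_nonneg_left c2 hκ
    have := mul_le_mul_of_nonneg_left c3 hε
    rw [hl]
    linarith
  rcases r with _ | o
  · simp only [Option.elim_none, wp_bind, wp_pure, Nat.add_zero]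
    refine (h.spec inp hv _ (C₀ + κ * (inp.length + (inp.length + t) + inp.length : ℕ) - lam * u)
      (by have : 0 ≤ κ * (inp.length + (inp.length + t) + inp.length : ℕ) := by positivity
          linarith) (fun o t' => wp_le_const (fun _ _ => hF _ _) le_rfl) fun o t' ho => ?_).trans
      (by linarith)
    have := fin o ((inp, o) :: x.2.2) (inp.length + (inp.length + t) + t')
      ⟨Function.update ρ₀ inp o.get, fun l => ?_, fun p hp => ?_⟩ (by simp)
      (fun p hp => by simp [hp]) (by simp)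
    · simp only [Nat.add_assoc] at this ⊢
      push_cast at this ⊢
      linarith
    · rw [Function.update_apply]
      split_ifs with e
      · exact e ▸ ho
      · exact hρ₀.1 l
    · rcases List.mem_cons.1 hp with rfl | hp
      · simp
      · rw [Function.update_of_ne (a1 rfl p hp)]
        exact hρ₀.2 p hp
  · simp only [Option.elim_some, wp_pure]
    have := fin o x.2.2 (inp.length + (inp.length + t)) ⟨ρ₀, hρ₀⟩ (a2 o rfl) (fun _ h => h) (by simp)
    have c4 : 0 ≤ κ * t₀ := by positivity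
    have c5 : 0 ≤ ε * t₀ := by positivity
    refine le_trans (le_of_eq ?_) (this.trans (by linarith))
    simp only [Nat.add_assoc, Nat.zero_add]

theorem interp_wp (h : Box B bb Valid Good τ κ ε) (hκ : 0 ≤ κ) (hε : 0 ≤ ε) (hτ : 0 < τ)
    {K Kt cap fu : ℕ} (q : L1.Cmd) : ∀ {x : IS} {V T : ℕ}, q.ok K V → cap ≤ V → (toSt x).Bdd V →
    2 * (V + T) + 2 ≤ B → T < fu → x.2.2.length * τ + T ≤ Kt * τ → (∃ ρ, Fits Good ρ x) →
    (∀ ρ, Fits Good ρ x → ∃ t s', L1.Ex (Rel Valid τ ρ) cap q (toSt x) t s' ∧ t ≤ T) →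
    ∀ {F : IS → ℕ → ℝ} {C₀ : ℝ}, (κ * (Kt + 4) + ε) * T ≤ C₀ → (∀ x t, F x t ≤ 1) →
    (∀ x' t u, Post Valid Good τ cap V T q x x' u →
      F x' t ≤ C₀ + κ * t - (κ * (Kt + 4) + ε) * u) → wp B (interp bb fu q x) F 1 ≤ C₀ := by
  obtain ⟨lam, hl⟩ : ∃ lam, lam = κ * (Kt + 4) + ε := ⟨_, rfl⟩
  have hl0 : κ ≤ lam := by
    have : 0 ≤ κ * (Kt + 3) := by positivity
    rw [hl]; linarith
  have hl1 : 0 ≤ lam := hκ.trans hl0
  induction q with
  | blk l =>
    intro x V T hq _ hx hB _ _ ⟨ρ₀, hρ₀⟩ hr F C₀ _ _ hP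
    obtain ⟨_, _, e, hT⟩ := hr ρ₀ hρ₀
    cases e
    refine wp_le_const_of_Tri (runB_tri (c := ⟨B, true⟩) l hq hx (by simp only; omega)) ?_ 1
    rintro x' _ ⟨a1, a2, rfl, a3⟩
    have hf : ∀ ρ, Fits Good ρ x' ↔ Fits Good ρ x := fun ρ => by simp only [Fits, a2]
    have := hP x' 0 l.length ⟨hT, a3, by rw [a2]; omega, ⟨ρ₀, (hf _).2 hρ₀⟩,
      fun ρ hρ => ⟨(hf _).1 hρ, a1 ▸ .blk _ _⟩⟩
    have : 0 ≤ lam * l.length := by positivity
    simp only [← hl, Nat.cast_zero, mul_zero, add_zero] at *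
    linarith
  | add d y z =>
    intro x V T _ hc hx hB _ _ ⟨ρ₀, hρ₀⟩ hr F C₀ _ _ hP
    obtain ⟨_, _, e, hT⟩ := hr ρ₀ hρ₀
    cases e with
    | add _ _ _ _ e =>
    have e' : x.1.get y + x.1.get z ≤ cap := e
    simp only [interp, wp_bind, wp_num, if_pos (by omega : x.1.get y + x.1.get z ≤ B), wp_pure]
    have := hP (x.1.set d (x.1.get y + x.1.get z), x.2) (0 + 0) 1 ⟨hT,
      ⟨L1.update_le (fun r => (hx.1 r).trans (by omega)) (by omega),
        fun j i => (hx.2 j i).trans (by omega)⟩, by simp, ⟨ρ₀, hρ₀⟩,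
      fun ρ hρ => ⟨hρ, .add _ _ _ _ e⟩⟩
    simp only [← hl, Nat.cast_zero, mul_zero, add_zero, Nat.cast_one] at *
    linarith
  | seq p q ih1 ih2 =>
    intro x V T hq hc hx hB hf hK hρ hr F C₀ hC hF hP
    simp only [interp, wp_bind]
    refine ih1 hq.1 hc hx hB hf hK hρ (fun ρ hρ => ?_) hC
      (fun _ _ => wp_le_const (fun _ _ => hF _ _) le_rfl) fun x1 t1 u1 a => ?_
    · obtain ⟨_, _, e, hT⟩ := hr ρ hρ
      cases e with
      | seq e1 e2 => exact ⟨_, _, e1, by omega⟩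
    · have := a.le
      have := a.len
      refine ih2 (V := V + u1) (T := T - u1) (hq.2.mono (by omega)) (by omega) a.bdd (by omega)
        (by omega) (by omega) a.ex (fun ρ hρ => ?_) ?_ (fun _ _ => hF _ _) fun x2 t2 u2 b => ?_
      · obtain ⟨_, _, e, hT⟩ := hr ρ (a.run ρ hρ).1
        cases e with
        | seq e1 e2 =>
          obtain ⟨rfl, rfl⟩ := h.det e1 (a.run ρ hρ).2
          exact ⟨_, _, e2, by omega⟩
      · have : 0 ≤ κ * t1 := by positivity
        rw [Nat.cast_sub a.le, mul_sub]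
        linarith
      · have := b.le
        have := b.len
        have := hP x2 (t1 + t2) (u1 + u2) ⟨by omega, b.bdd.mono (by omega), by omega, b.ex,
          fun ρ hρ => ⟨(a.run ρ (b.run ρ hρ).1).1, .seq (a.run ρ (b.run ρ hρ).1).2 (b.run ρ hρ).2⟩⟩
        push_cast at this
        linarith
  | ite c p q ih1 ih2 =>
    intro x V T hq hc hx hB hf hK hρ hr F C₀ hC hF hP
    have hT1 : 1 ≤ T := by
      obtain ⟨ρ, hρ⟩ := hρ
      obtain ⟨_, _, e, hT⟩ := hr ρ hρ
      cases e <;> omega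
    have hC' : (κ * (Kt + 4) + ε) * (T - 1 : ℕ) ≤ C₀ := by
      rw [Nat.cast_sub hT1, ← hl] at *
      push_cast
      linarith
    simp only [interp]
    split_ifs with e0
    · refine ih1 (T := T - 1) hq.1 hc hx (by omega) (by omega) (by omega) hρ (fun ρ hρ => ?_) hC' hF
        fun x1 t1 u1 a => ?_
      · obtain ⟨_, _, e, hT⟩ := hr ρ hρ
        cases e with
        | iteTrue _ e => exact ⟨_, _, e, by omega⟩
        | iteFalse e _ => exact (e ((testB_iff c x).1 e0)).elim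
      · have := a.le
        have := a.len
        have := hP x1 t1 (u1 + 1) ⟨by omega, a.bdd.mono (by omega), by omega, a.ex,
          fun ρ hρ => ⟨(a.run ρ hρ).1, .iteTrue ((testB_iff c x).1 e0) (a.run ρ hρ).2⟩⟩
        rw [← hl] at this ⊢
        push_cast at this
        linarith
    · refine ih2 (T := T - 1) hq.2 hc hx (by omega) (by omega) (by omega) hρ (fun ρ hρ => ?_) hC' hF
        fun x1 t1 u1 a => ?_
      · obtain ⟨_, _, e, hT⟩ := hr ρ hρ
        cases e with
        | iteTrue e _ => exact (e0 ((testB_iff c x).2 e)).elim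
        | iteFalse _ e => exact ⟨_, _, e, by omega⟩
      · have := a.le
        have := a.len
        have := hP x1 t1 (u1 + 1) ⟨by omega, a.bdd.mono (by omega), by omega, a.ex,
          fun ρ hρ => ⟨(a.run ρ hρ).1,
            .iteFalse (fun e => e0 ((testB_iff c x).2 e)) (a.run ρ hρ).2⟩⟩
        rw [← hl] at this ⊢
        push_cast at this
        linarith
  | loop c p ih =>
    intro x V T hq hc hx hB hf hK hρ hr F C₀ hC hF hP
    simp only [interp]
    obtain ⟨k, hk, e⟩ : ∃ k, T < k ∧ k = fu := ⟨fu, hf, rfl⟩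
    conv_lhs => arg 2; arg 2; rw [← e]
    clear e
    induction k generalizing x V T F C₀ with
    | zero => omega
    | succ k ihk =>
    have hT1 : 1 ≤ T := by
      obtain ⟨ρ, hρ⟩ := hρ
      obtain ⟨_, _, e, hT⟩ := hr ρ hρ
      cases e <;> omega
    rw [loopM, wp_bind]
    split_ifs with e0
    · simp only [wp_bind, wp_pure, Sum.elim_inl, wp_tick, Nat.add_zero]
      refine ih (T := T - 1) hq hc hx (by omega) (by omega) (by omega) hρ (fun ρ hρ => ?_)
        (by rw [Nat.cast_sub hT1, ← hl] at *; push_cast; linarith)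
        (fun _ _ => wp_le_const (fun _ _ => hF _ _) le_rfl) fun x1 t1 u1 a => ?_
      · obtain ⟨_, _, e, hT⟩ := hr ρ hρ
        cases e with
        | loopDone e => exact (e ((testB_iff c x).1 e0)).elim
        | loopStep _ e _ => exact ⟨_, _, e, by omega⟩
      · have := a.le
        have := a.len
        refine le_trans (ihk (V := V + u1) (T := T - (u1 + 1))
          (C₀ := C₀ + κ * (t1 + 1) - lam * (u1 + 1)) (hq.mono (by omega)) (by omega)
          a.bdd (by omega) (by omega) (by omega) a.ex (fun ρ hρ => ?_) ?_ (fun _ _ => hF _ _)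
          (fun x2 t2 u2 b => ?_) (by omega)) (by rw [← hl]; linarith)
        · obtain ⟨_, _, e, hT⟩ := hr ρ (a.run ρ hρ).1
          cases e with
          | loopDone e => exact (e ((testB_iff c x).1 e0)).elim
          | loopStep _ e1 e2 =>
            obtain ⟨rfl, rfl⟩ := h.det e1 (a.run ρ hρ).2
            exact ⟨_, _, e2, by omega⟩
        · have : 0 ≤ κ * (t1 + 1) := by positivity
          rw [Nat.cast_sub (by omega), mul_sub, ← hl] at *
          push_cast
          linarith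
        · have := b.le
          have := b.len
          have := hP x2 (t1 + (t2 + 1)) (u1 + u2 + 1) ⟨by omega, b.bdd.mono (by omega), by omega,
            b.ex, fun ρ hρ => ⟨(a.run ρ (b.run ρ hρ).1).1, .loopStep ((testB_iff c x).1 e0)
              (a.run ρ (b.run ρ hρ).1).2 (b.run ρ hρ).2⟩⟩
          rw [← hl] at this ⊢
          push_cast at this
          linarith
    · simp only [wp_pure, Sum.elim_inr, Nat.add_zero]
      have := hP x 0 1 ⟨hT1, hx.mono (by omega), by omega, hρ,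
        fun ρ hρ => ⟨hρ, .loopDone fun e => e0 ((testB_iff c x).2 e)⟩⟩
      simp only [← hl, Nat.cast_zero, mul_zero, add_zero, Nat.cast_one] at this
      linarith
  | call =>
    intro x V T _ _ hx hB _ hK hρ hr F C₀ hC hF hP
    exact callM_wp h hκ hε hx (by omega) (Nat.le_of_mul_le_mul_right (by omega) hτ) hρ hr hC hF hP

end Vale.Agent.P305L
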